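import Vale.Agent.P271.F507.PL

/-!
# P271: discrete Brunn-Minkowski inequality for finite subsets of `ℕ^d`
-/

set_option linter.all false

open MeasureTheory Set
open scoped ENNReal NNReal Pointwise

namespace Vale.Agent.P271.F507

/-- half open unit cube with lower corner `ξ` -/
def cube {d : ℕ} (ξ : Fin d → ℕ) : Set (Fin d → ℝ) :=
  Set.pi univ (fun i => Ico ((ξ i : ℕ) : ℝ) ((ξ i : ℕ) + 1))

theorem mem_cube {d : ℕ} {ξ : Fin d → ℕ} {x : Fin d → ℝ} :
    x ∈ cube ξ ↔ ∀ i, ((ξ i : ℕ) : ℝ) ≤ x i ∧ x i < (ξ i : ℕ) + 1 := by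
  simp [cube]

theorem measurableSet_cube {d : ℕ} (ξ : Fin d → ℕ) : MeasurableSet (cube ξ) :=
  MeasurableSet.univ_pi fun i => measurableSet_Ico

theorem volume_cube {d : ℕ} (ξ : Fin d → ℕ) : volume (cube ξ) = 1 := by
  rw [cube, volume_pi_pi]
  simp

theorem cube_eq_of_mem {d : ℕ} {ξ η : Fin d → ℕ} {x : Fin d → ℝ} (h1 : x ∈ cube ξ)
    (h2 : x ∈ cube η) : ξ = η := by
  rw [mem_cube] at h1 h2
  funext i
  obtain ⟨a1, a2⟩ := h1 i
  obtain ⟨b1, b2⟩ := h2 i
  have c1 : ((ξ i : ℕ) : ℝ) < (η i : ℕ) + 1 := lt_of_le_of_lt a1 b2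
  have c2 : ((η i : ℕ) : ℝ) < (ξ i : ℕ) + 1 := lt_of_le_of_lt b1 a2
  have c1' : ξ i < η i + 1 := by exact_mod_cast c1
  have c2' : η i < ξ i + 1 := by exact_mod_cast c2
  omega

/-- union of the cubes of a finite set -/
def cubes {d : ℕ} (A : Finset (Fin d → ℕ)) : Set (Fin d → ℝ) := ⋃ ξ ∈ A, cube ξ

theorem mem_cubes {d : ℕ} {A : Finset (Fin d → ℕ)} {x : Fin d → ℝ} :
    x ∈ cubes A ↔ ∃ ξ ∈ A, x ∈ cube ξ := by
  simp [cubes]

theorem measurableSet_cubes {d : ℕ} (A : Finset (Fin d → ℕ)) : MeasurableSet (cubes A) :=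
  Finset.measurableSet_biUnion _ fun ξ _ => measurableSet_cube ξ

theorem volume_cubes {d : ℕ} (A : Finset (Fin d → ℕ)) : volume (cubes A) = A.card := by
  rw [cubes, measure_biUnion_finset]
  · simp [volume_cube]
  · intro ξ _ η _ hne
    rw [Function.onFun, Set.disjoint_left]
    intro x hx hx'
    exact hne (cube_eq_of_mem hx hx')
  · intro ξ _
    exact measurableSet_cube ξ

theorem cubes_add {d : ℕ} {A B C : Finset (Fin d → ℕ)}
    (h : ∀ ξ ∈ A, ∀ η ∈ B, ∀ ε : Fin d → ℕ, (∀ i, ε i ≤ 1) → ξ + η + ε ∈ C)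
    {x y : Fin d → ℝ} (hx : x ∈ cubes A) (hy : y ∈ cubes B) : x + y ∈ cubes C := by
  rw [mem_cubes] at hx hy ⊢
  obtain ⟨ξ, hξ, hx⟩ := hx
  obtain ⟨η, hη, hy⟩ := hy
  rw [mem_cube] at hx hy
  classical
  set ε : Fin d → ℕ := fun i => if x i + y i < (ξ i : ℝ) + η i + 1 then 0 else 1 with hε
  refine ⟨ξ + η + ε, h ξ hξ η hη ε ?_, ?_⟩
  · intro i
    simp only [hε]
    split_ifs <;> omega
  · rw [mem_cube]
    intro i
    obtain ⟨a1, a2⟩ := hx i
    obtain ⟨b1, b2⟩ := hy i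
    simp only [Pi.add_apply, hε]
    split_ifs with hc
    · push_cast
      constructor <;> linarith
    · push_cast
      constructor <;> linarith

/-- Discrete Brunn-Minkowski inequality. -/
theorem discrete_bm {d : ℕ} (hd : 0 < d) {A B C : Finset (Fin d → ℕ)}
    (hA : A.Nonempty) (hB : B.Nonempty)
    (h : ∀ ξ ∈ A, ∀ η ∈ B, ∀ ε : Fin d → ℕ, (∀ i, ε i ≤ 1) → ξ + η + ε ∈ C) :
    (A.card : ℝ) ^ ((1 : ℝ) / d) + (B.card : ℝ) ^ ((1 : ℝ) / d) ≤ (C.card : ℝ) ^ ((1 : ℝ) / d) := by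
  have hdR : (0 : ℝ) < d := by exact_mod_cast hd
  have hd0 : d ≠ 0 := hd.ne'
  have cA : (0 : ℝ) < A.card := by exact_mod_cast hA.card_pos
  have cB : (0 : ℝ) < B.card := by exact_mod_cast hB.card_pos
  set α : ℝ := (A.card : ℝ) ^ ((1 : ℝ) / d) with hα
  set β : ℝ := (B.card : ℝ) ^ ((1 : ℝ) / d) with hβ
  have hα0 : 0 < α := Real.rpow_pos_of_pos cA _
  have hβ0 : 0 < β := Real.rpow_pos_of_pos cB _
  have hαd : α ^ d = A.card := by
    rw [hα, ← Real.rpow_natCast, ← Real.rpow_mul cA.le]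
    rw [one_div, inv_mul_cancel₀ hdR.ne', Real.rpow_one]
  have hβd : β ^ d = B.card := by
    rw [hβ, ← Real.rpow_natCast, ← Real.rpow_mul cB.le]
    rw [one_div, inv_mul_cancel₀ hdR.ne', Real.rpow_one]
  set s : ℝ := α / (α + β) with hs
  set t : ℝ := β / (α + β) with ht
  have hab : 0 < α + β := by positivity
  have hs0 : 0 < s := by positivity
  have ht0 : 0 < t := by positivity
  have hst : s + t = 1 := by
    rw [hs, ht, ← add_div, div_self hab.ne']
  have vA : volume ((fun x : Fin d → ℝ => s • x) ⁻¹' cubes A) = ENNReal.ofReal ((α + β) ^ d) := by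
    rw [Measure.addHaar_preimage_smul _ hs0.ne', volume_cubes]
    rw [Module.finrank_fin_fun, abs_of_pos (by positivity)]
    rw [show ((A.card : ℕ) : ℝ≥0∞) = ENNReal.ofReal (A.card : ℝ) by simp]
    rw [← ENNReal.ofReal_mul (by positivity), ← hαd, hs]
    congr 1
    rw [div_pow]
    field_simp
  have vB : volume ((fun x : Fin d → ℝ => t • x) ⁻¹' cubes B) = ENNReal.ofReal ((α + β) ^ d) := by
    rw [Measure.addHaar_preimage_smul _ ht0.ne', volume_cubes]
    rw [Module.finrank_fin_fun, abs_of_pos (by positivity)]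
    rw [show ((B.card : ℕ) : ℝ≥0∞) = ENNReal.ofReal (B.card : ℝ) by simp]
    rw [← ENNReal.ofReal_mul (by positivity), ← hβd, ht]
    congr 1
    rw [div_pow]
    field_simp
  have key := bm_mul hs0 ht0 hst
    (A := (fun x : Fin d → ℝ => s • x) ⁻¹' cubes A)
    (B := (fun x : Fin d → ℝ => t • x) ⁻¹' cubes B) (C := cubes C)
    ((measurableSet_cubes A).preimage (measurable_const_smul s))
    ((measurableSet_cubes B).preimage (measurable_const_smul t))
    (measurableSet_cubes C)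
    (by
      intro a ha b hb
      exact cubes_add h ha hb)
  rw [vA, vB, volume_cubes] at key
  have hpos : 0 < (α + β) ^ d := by positivity
  rw [← ENNReal.rpow_add _ _ (by simpa using hpos) ENNReal.ofReal_ne_top, hst,
    ENNReal.rpow_one] at key
  rw [show ((C.card : ℕ) : ℝ≥0∞) = ENNReal.ofReal (C.card : ℝ) by simp] at key
  have key2 : (α + β) ^ d ≤ (C.card : ℝ) :=
    (ENNReal.ofReal_le_ofReal_iff (by positivity)).1 key
  calc α + β = ((α + β) ^ d) ^ ((1 : ℝ) / d) := by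
        rw [← Real.rpow_natCast, ← Real.rpow_mul hab.le, one_div,
          mul_inv_cancel₀ hdR.ne', Real.rpow_one]
    _ ≤ _ := Real.rpow_le_rpow (by positivity) key2 (by positivity)

end Vale.Agent.P271.F507
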