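import Vale.Agent.P271.F507.BM

/-!
# P271: the counting lemma (Part 2 of the proof of Fujita freeness)
-/

set_option linter.all false

open Finset

namespace Vale.Agent.P271.F507

/-- degree of an exponent -/
def deg {d : ℕ} (ξ : Fin d → ℕ) : ℕ := ∑ i, ξ i

theorem card_filter_deg_le {d : ℕ} (A : Finset (Fin d → ℕ)) (t : ℕ) :
    (A.filter (fun ξ => deg ξ ≤ t)).card ≤ (t + d).choose d := by
  classical
  have h1 : ((Finset.univ : Finset (Fin (d + 1))).finsuppAntidiag t).card = (t + d).choose d := by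
    rw [Finset.card_finsuppAntidiag_nat_eq_choose]
    simp only [Finset.card_univ, Fintype.card_fin]
    rw [show d + 1 + t - 1 = t + d by omega, ← Nat.choose_symm (by omega : t ≤ t + d)]
    congr 1
    omega
  rw [← h1]
  refine Finset.card_le_card_of_injOn
    (fun ξ => Finsupp.equivFunOnFinite.symm (Fin.cons (t - deg ξ) ξ : Fin (d + 1) → ℕ)) ?_ ?_
  · intro ξ hξ
    simp only [Finset.coe_filter, Set.mem_setOf_eq] at hξ
    simp only [Finset.mem_coe, Finset.mem_finsuppAntidiag, Finset.subset_univ, and_true]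
    rw [Fin.sum_univ_succ]
    simp only [Finsupp.equivFunOnFinite_symm_apply_apply, Fin.cons_zero, Fin.cons_succ]
    have := hξ.2
    simp only [deg] at this ⊢
    omega
  · intro ξ _ η _ h
    have h2 := Finsupp.equivFunOnFinite.symm.injective h
    exact (Fin.cons_inj.1 h2).2

/-- bathtub inequality -/
theorem mul_card_le {d : ℕ} (A : Finset (Fin d → ℕ)) (T : ℕ) :
    T * A.card ≤ ∑ ξ ∈ A, deg ξ + (T + d).choose (d + 1) := by
  classical
  have h1 : ∀ ξ : Fin d → ℕ, T ≤ deg ξ + ((range T).filter (fun t => deg ξ ≤ t)).card := by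
    intro ξ
    by_cases h : T ≤ deg ξ
    · omega
    · push Not at h
      have : (range T).filter (fun t => deg ξ ≤ t) = Ico (deg ξ) T := by
        ext t
        simp only [mem_filter, mem_range, mem_Ico]
        omega
      rw [this, Nat.card_Ico]
      omega
  have h2 : T * A.card ≤ ∑ ξ ∈ A, (deg ξ + ((range T).filter (fun t => deg ξ ≤ t)).card) := by
    calc T * A.card = ∑ ξ ∈ A, T := by rw [Finset.sum_const, smul_eq_mul, mul_comm]
      _ ≤ _ := Finset.sum_le_sum fun ξ _ => h1 ξ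
  rw [Finset.sum_add_distrib] at h2
  have h3 : ∑ ξ ∈ A, ((range T).filter (fun t => deg ξ ≤ t)).card =
      ∑ t ∈ range T, (A.filter (fun ξ => deg ξ ≤ t)).card := by
    simp only [Finset.card_filter]
    rw [Finset.sum_comm]
  have h4 : ∑ t ∈ range T, (A.filter (fun ξ => deg ξ ≤ t)).card ≤ (T + d).choose (d + 1) := by
    calc _ ≤ ∑ t ∈ range T, (t + d).choose d :=
          Finset.sum_le_sum fun t _ => card_filter_deg_le A t
      _ = _ := by
        cases T with
        | zero => simp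
        | succ T => rw [Nat.sum_range_add_choose]; congr 1; omega
  omega

/-- the simplex minimises the sum of degrees (asymptotic form) -/
theorem sum_deg_ge {d : ℕ} (A : Finset (Fin d → ℕ)) {R : ℝ} (hR : 0 ≤ R)
    (hRd : R ^ d = (d.factorial : ℝ) * A.card) :
    (d : ℝ) / (d + 1) * R * A.card - (d + 1) * A.card ≤ ∑ ξ ∈ A, (deg ξ : ℝ) := by
  have hn : (0 : ℝ) ≤ A.card := Nat.cast_nonneg _
  have hd1 : (0 : ℝ) < (d : ℝ) + 1 := by positivity
  have hsum0 : (0 : ℝ) ≤ ∑ ξ ∈ A, (deg ξ : ℝ) := Finset.sum_nonneg fun _ _ => Nat.cast_nonneg _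
  by_cases hc : R < d
  · have h1 : (d : ℝ) / (d + 1) * R ≤ d + 1 := by
      have : (d : ℝ) / (d + 1) ≤ 1 := by
        rw [div_le_one hd1]; linarith
      calc (d : ℝ) / (d + 1) * R ≤ 1 * R := by gcongr
        _ ≤ d + 1 := by linarith
    have h2 := mul_le_mul_of_nonneg_right h1 hn
    linarith
  · push Not at hc
    have hfl : d ≤ ⌊R⌋₊ := Nat.le_floor hc
    obtain ⟨T, hT⟩ := Nat.exists_eq_add_of_le hfl
    have h1 := mul_card_le A T
    have hTR : ((T + d : ℕ) : ℝ) ≤ R := by
      rw [show T + d = ⌊R⌋₊ by omega]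
      exact Nat.floor_le hR
    have hTR2 : R - 1 - d ≤ (T : ℝ) := by
      have := Nat.lt_floor_add_one R
      rw [hT] at this
      push_cast at this
      linarith
    have h2 : (((T + d).choose (d + 1) : ℕ) : ℝ) ≤ R * A.card / (d + 1) := by
      calc (((T + d).choose (d + 1) : ℕ) : ℝ)
          ≤ ((T + d : ℕ) : ℝ) ^ (d + 1) / ((d + 1).factorial : ℝ) :=
            Nat.choose_le_pow_div _ _
        _ ≤ R ^ (d + 1) / ((d + 1).factorial : ℝ) := by gcongr
        _ = R * A.card / (d + 1) := by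
          rw [pow_succ, hRd, Nat.factorial_succ]
          push_cast
          have : (d.factorial : ℝ) ≠ 0 := by exact_mod_cast Nat.factorial_ne_zero d
          field_simp
    have h1' : (T : ℝ) * A.card ≤ ∑ ξ ∈ A, (deg ξ : ℝ) + (((T + d).choose (d + 1) : ℕ) : ℝ) := by
      exact_mod_cast h1
    have h3 := mul_le_mul_of_nonneg_right hTR2 hn
    have h4 : (d : ℝ) / (d + 1) * R * A.card = R * A.card - R * A.card / (d + 1) := by
      field_simp
      ring
    rw [h4]
    nlinarith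

theorem pow_succ_add_ge {y b : ℝ} (hy : 0 ≤ y) (hb : 0 ≤ b) (d : ℕ) :
    y ^ (d + 1) + (d + 1) * b * y ^ d ≤ (y + b) ^ (d + 1) := by
  induction d with
  | zero => simp
  | succ d ih =>
    have h1 : (y ^ (d + 1) + (d + 1) * b * y ^ d) * (y + b) ≤ (y + b) ^ (d + 1) * (y + b) :=
      mul_le_mul_of_nonneg_right ih (by positivity)
    rw [pow_succ (y + b) (d + 1)]
    refine le_trans ?_ h1
    have h2 : 0 ≤ (d + 1 : ℝ) * b * y ^ d * b := by positivity
    push_cast
    have : y ^ (d + 1 + 1) + (↑d + 1 + 1) * b * y ^ (d + 1) + (d + 1 : ℝ) * b * y ^ d * b =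
        (y ^ (d + 1) + (↑d + 1) * b * y ^ d) * (y + b) := by ring
    linarith

/-- telescoping -/
theorem telescope {d : ℕ} (n y : ℕ → ℝ) (hy : ∀ M, 0 ≤ y M) (hyn : ∀ M, y M ^ d = n M)
    (hd : 0 < d) {b : ℝ} (hb : 0 ≤ b) {ρ : ℕ}
    (hstep : ∀ M, 0 < n M → y M + b ≤ y (M + ρ)) (K : ℕ) :
    ∀ m, K * ρ ≤ m →
      (d + 1) * b * ∑ k ∈ range K, n (m - (k + 1) * ρ) ≤ y m ^ (d + 1) := by
  have hone : ∀ M, y M ^ (d + 1) + (d + 1) * b * n M ≤ y (M + ρ) ^ (d + 1) := by
    intro M
    rcases (hy M).eq_or_lt with h0 | h0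
    · have hn0 : n M = 0 := by rw [← hyn M, ← h0]; simp [hd.ne']
      rw [hn0, ← h0]
      simp only [ne_eq, Nat.add_eq_zero_iff, one_ne_zero, and_false, not_false_eq_true, zero_pow,
        mul_zero, add_zero]
      exact pow_nonneg (hy _) _
    · have hn0 : 0 < n M := by rw [← hyn M]; positivity
      have := pow_succ_add_ge (hy M) hb d
      rw [hyn M] at this
      exact this.trans (pow_le_pow_left₀ (add_nonneg (hy M) hb) (hstep M hn0) _)
  have hgen : ∀ K m, K * ρ ≤ m →
      y (m - K * ρ) ^ (d + 1) + (d + 1) * b * ∑ k ∈ range K, n (m - (k + 1) * ρ) ≤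
        y m ^ (d + 1) := by
    intro K
    induction K with
    | zero => intro m _; simp
    | succ K ih =>
      intro m hm
      have hm' : K * ρ ≤ m := by
        rw [Nat.succ_mul] at hm; omega
      have h1 := ih m hm'
      have h2 := hone (m - (K + 1) * ρ)
      have h3 : m - (K + 1) * ρ + ρ = m - K * ρ := by
        rw [Nat.succ_mul] at hm ⊢
        omega
      rw [h3] at h2
      rw [Finset.sum_range_succ, mul_add]
      linarith
  intro m hm
  have := hgen K m hm
  have h0 : 0 ≤ y (m - K * ρ) ^ (d + 1) := pow_nonneg (hy _) _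
  linarith

/-- **The counting lemma.** `A M a` is the set of exponents of the piece `a` at level `M`,
`B` the set of exponents of the restricted series at the level `ρ - r₁`; the hypothesis `hAB`
is (a) with `{0,1}^d ⊆ B_{r₁}`. -/
theorem count_main {d : ℕ} (hd : 0 < d) {ι : Type*} (s : Finset ι)
    (A : ℕ → ι → Finset (Fin d → ℕ)) (B : Finset (Fin d → ℕ)) (hB : B.Nonempty) (ρ : ℕ)
    (hAB : ∀ M, ∀ a ∈ s, ∀ ξ ∈ A M a, ∀ η ∈ B, ∀ ε : Fin d → ℕ, (∀ i, ε i ≤ 1) →
      ξ + η + ε ∈ A (M + ρ) a)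
    (K m : ℕ) (hK : K * ρ ≤ m) :
    (d : ℝ) * ((d.factorial : ℝ) ^ ((1 : ℝ) / d)) * ((B.card : ℝ) ^ ((1 : ℝ) / d)) *
        ∑ k ∈ range K, ∑ a ∈ s, ((A (m - (k + 1) * ρ) a).card : ℝ)
      - (d + 1) * ∑ a ∈ s, ((A m a).card : ℝ) ≤
    ∑ a ∈ s, ∑ ξ ∈ A m a, (deg ξ : ℝ) := by
  have hdR : (0 : ℝ) < d := by exact_mod_cast hd
  set b : ℝ := (B.card : ℝ) ^ ((1 : ℝ) / d) with hb
  have hb0 : 0 ≤ b := by positivity
  set f : ℝ := (d.factorial : ℝ) ^ ((1 : ℝ) / d) with hf
  have hf0 : 0 ≤ f := by positivity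
  have hfd : f ^ d = d.factorial := by
    rw [hf, ← Real.rpow_natCast, ← Real.rpow_mul (by positivity)]
    rw [one_div, inv_mul_cancel₀ hdR.ne', Real.rpow_one]
  have main : ∀ a ∈ s,
      (d : ℝ) * f * b * ∑ k ∈ range K, ((A (m - (k + 1) * ρ) a).card : ℝ)
        - (d + 1) * ((A m a).card : ℝ) ≤ ∑ ξ ∈ A m a, (deg ξ : ℝ) := by
    intro a ha
    set n : ℕ → ℝ := fun M => ((A M a).card : ℝ) with hn
    set y : ℕ → ℝ := fun M => ((A M a).card : ℝ) ^ ((1 : ℝ) / d) with hy
    have hy0 : ∀ M, 0 ≤ y M := fun M => by simp only [hy]; positivity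
    have hyn : ∀ M, y M ^ d = n M := by
      intro M
      simp only [hy, hn]
      rw [← Real.rpow_natCast, ← Real.rpow_mul (by positivity)]
      rw [one_div, inv_mul_cancel₀ hdR.ne', Real.rpow_one]
    have hstep : ∀ M, 0 < n M → y M + b ≤ y (M + ρ) := by
      intro M hM
      have hne : (A M a).Nonempty := by
        rw [← Finset.card_pos]
        simp only [hn] at hM
        exact_mod_cast hM
      exact discrete_bm hd hne hB (hAB M a ha)
    have h1 := telescope n y hy0 hyn hd hb0 hstep K m hK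
    have h2 := sum_deg_ge (A m a) (R := f * y m) (mul_nonneg hf0 (hy0 m))
      (by rw [mul_pow, hfd, hyn m])
    have h3 : (d : ℝ) / (d + 1) * (f * y m) * ((A m a).card : ℝ) =
        (d : ℝ) / (d + 1) * f * y m ^ (d + 1) := by
      have : ((A m a).card : ℝ) = y m ^ d := (hyn m).symm
      rw [this, pow_succ]
      ring
    rw [h3] at h2
    have h4 : (d : ℝ) * f * b * ∑ k ∈ range K, n (m - (k + 1) * ρ) ≤
        (d : ℝ) / (d + 1) * f * y m ^ (d + 1) := by
      have h5 := mul_le_mul_of_nonneg_left h1 (show 0 ≤ (d : ℝ) / (d + 1) * f by positivity)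
      refine le_trans (le_of_eq ?_) h5
      field_simp
    linarith
  have h6 := Finset.sum_le_sum main
  refine le_trans (le_of_eq ?_) h6
  rw [Finset.sum_sub_distrib, Finset.sum_comm, ← Finset.mul_sum, ← Finset.mul_sum]

end Vale.Agent.P271.F507
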